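import Vale.Agent.P155.U613.Sep
import Vale.Agent.P155.K.Final

/-!
# P155 uniqueness: assembly of `Uniqueness` and `FullStatement`
-/

namespace Vale.Agent.P155.U613

open MeasureTheory Set TopologicalSpace Filter Topology Uq

/-- Two canonical laws on the same domain are equal. -/
theorem canon_unique (hX : ExistsCpl) (hE : ExtStmt) {Ω : Set ℂ} (hΩ : IsOpen Ω)
    (hb : Bornology.IsBounded Ω) (hne : Ω.Nonempty) {Q Q' : Measure (Sp Ω)} (hQ : Canon Ω Q)
    (hQ' : Canon Ω Q') : Q = Q' := by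
  obtain ⟨X, mX, μ, a, a', hμ, ha, ha', hma, hma', hstep⟩ := hX Ω hΩ hb hne Q Q' hQ hQ'
  obtain ⟨e, he, hsep⟩ := exists_fam hΩ
  have key : ∀ k, ∀ᵐ x ∂μ, a x k = a' x k := by
    intro k
    induction k with
    | zero =>
      have h1 : ∀ᵐ s ∂(μ.map a), ((s 0).1 : Set ℂ) = frontier Ω ∧ (s 0).2 = 0 := by
        rw [hma]
        exact hQ.zero
      have h2 : ∀ᵐ s ∂(μ.map a'), ((s 0).1 : Set ℂ) = frontier Ω ∧ (s 0).2 = 0 := by
        rw [hma']
        exact hQ'.zero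
      filter_upwards [ae_of_ae_map ha.aemeasurable h1, ae_of_ae_map ha'.aemeasurable h2]
        with x hx hx'
      apply Prod.ext
      · exact SetLike.coe_injective (hx.1.trans hx'.1.symm)
      · rw [hx.2, hx'.2]
    | succ k ih =>
      obtain ⟨Γ, Z, hC⟩ := hstep k ih
      obtain ⟨hA, hh⟩ := hE Ω μ _ _ _ _ _ _ _ Γ Z hC
      have hh' : ∀ᵐ x ∂μ, ∀ n, pr (a x (k + 1)).2 (e n) - pr (a x k).2 (e n) =
          pr (a' x (k + 1)).2 (e n) - pr (a' x k).2 (e n) := by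
        rw [ae_all_iff]
        intro n
        exact hh (e n) (he n)
      filter_upwards [hA, hh', ih] with x hx1 hx2 hx3
      apply Prod.ext
      · exact hx1
      · apply hsep
        intro n
        have := hx2 n
        rw [hx3] at this
        linarith
  have hall : a =ᵐ[μ] a' := by
    have := ae_all_iff.2 key
    filter_upwards [this] with x hx
    exact funext hx
  rw [← hma, ← hma']
  exact Measure.map_congr hall

theorem uniqueness_of (hC : CanonStmt) (hX : ExistsCpl) (hE : ExtStmt) : Uniqueness := by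
  intro Ω hΩ hb hne Θ Θ' _ _ P _ P' _ G H G' H' h h' k m χ hχ F hF hFb
  obtain ⟨Q, hQ, hQF⟩ := hC Ω hΩ hb hne P G H h
  obtain ⟨Q', hQ', hQF'⟩ := hC Ω hΩ hb hne P' G' H' h'
  rw [hQF k m χ hχ F hF hFb, hQF' k m χ hχ F hF hFb, canon_unique hX hE hΩ hb hne hQ hQ']

theorem full_of_uniqueness (hU : Uniqueness) (hM : MainStatement) : FullStatement := by
  intro Ω hΩ hb hne hsc S
  refine ⟨?_, ?_⟩
  · obtain ⟨ms, hms, Θ, mΘ, P, G, H, hP, hS, -⟩ := hM Ω hΩ hb hne hsc S id strictMono_id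
    exact ⟨Θ, mΘ, P, G, H, hP, hS⟩
  · intro Θ mΘ P G H hP hS k m χ hχ F hF hFb
    apply Filter.tendsto_of_subseq_tendsto
    intro ns hns
    obtain ⟨φ, hφ, hnφ⟩ := strictMono_subseq_of_tendsto_atTop hns
    obtain ⟨ms, hms, Θ', mΘ', P', G', H', hP', hS', hlim⟩ :=
      hM Ω hΩ hb hne hsc S (ns ∘ φ) hnφ
    refine ⟨φ ∘ ms, ?_⟩
    have h1 := hlim k m χ hχ F hF hFb
    rw [hU Ω hΩ hb hne P' P G' H' G H hS' hS k m χ hχ F hF hFb] at h1
    exact h1

end Vale.Agent.P155.U613
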