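import Vale.Agent.P155.U613.Props

/-!
# P155 uniqueness: reduction to the canonical space (`CanonStmt`)
-/

namespace Vale.Agent.P155.U613

open MeasureTheory Set TopologicalSpace Uq

variable {Ω : Set ℂ}

/-- the measurable reconstruction of the field from its pairings -/
theorem exists_rec (e : ℕ → ℂ → ℝ) (he : ∀ n, IsTest Ω (e n))
    (hsep : ∀ f g : Fld Ω, (∀ n, pr f (e n) = pr g (e n)) → f = g) :
    ∃ R : (ℕ → ℝ) → Fld Ω, Measurable R ∧ ∀ f, R (fun n => pr f (e n)) = f := by
  set T : Fld Ω → (ℕ → ℝ) := fun f n => pr f (e n) with hT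
  have hTc : Continuous T := continuous_pi fun n => continuous_pr (he n)
  have hTi : Function.Injective T := fun f g h => hsep f g fun n => congrFun h n
  have hemb : MeasurableEmbedding T := hTc.measurableEmbedding hTi
  obtain ⟨R, hR, hRT⟩ := hemb.exists_measurable_extend (g := id) measurable_id fun _ => ⟨0⟩
  exact ⟨R, hR, fun f => congrFun hRT f⟩

/-- the property `sign` at a rational disc -/
def SignP (Ω : Set ℂ) (i : P155.U.Idx) (p q : NonemptyCompacts ℂ × Fld Ω) : Prop :=
  Metric.closedBall (P155.U.ctr i) (i.2 : ℝ) ⊆ Ω →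
    Disjoint (Metric.closedBall (P155.U.ctr i) (i.2 : ℝ)) (q.1 : Set ℂ) →
    (∀ᵐ w ∂(volume.restrict Ω : Measure ℂ), w ∈ Metric.ball (P155.U.ctr i) (i.2 : ℝ) →
      (q.2 - p.2 : Fld Ω) w = 1) ∨
    (∀ᵐ w ∂(volume.restrict Ω : Measure ℂ), w ∈ Metric.ball (P155.U.ctr i) (i.2 : ℝ) →
      (q.2 - p.2 : Fld Ω) w = -1)

theorem measurable_signP (hΩ : IsOpen Ω) (i : P155.U.Idx) :
    MeasurableSet {pq : (NonemptyCompacts ℂ × Fld Ω) × (NonemptyCompacts ℂ × Fld Ω) |
      SignP Ω i pq.1 pq.2} := by
  by_cases hi : Metric.closedBall (P155.U.ctr i) (i.2 : ℝ) ⊆ Ω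
  · have h1 : IsOpen {pq : (NonemptyCompacts ℂ × Fld Ω) × (NonemptyCompacts ℂ × Fld Ω) |
        (pq.2.1 : Set ℂ) ⊆ (Metric.closedBall (P155.U.ctr i) (i.2 : ℝ))ᶜ} :=
      (NonemptyCompacts.isOpen_subsets_of_isOpen Metric.isClosed_closedBall.isOpen_compl).preimage
        (continuous_fst.comp continuous_snd)
    have h2 : ∀ t : ℝ, IsClosed {pq : (NonemptyCompacts ℂ × Fld Ω) ×
        (NonemptyCompacts ℂ × Fld Ω) | ∀ᵐ w ∂(volume.restrict Ω : Measure ℂ),
          w ∈ Metric.ball (P155.U.ctr i) (i.2 : ℝ) → (pq.2.2 - pq.1.2 : Fld Ω) w = t} := fun t =>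
      (isClosed_const hΩ.measurableSet Metric.isOpen_ball
        (Metric.ball_subset_closedBall.trans hi) t).preimage
        ((continuous_snd.comp continuous_snd).sub (continuous_snd.comp continuous_fst))
    have e : {pq : (NonemptyCompacts ℂ × Fld Ω) × (NonemptyCompacts ℂ × Fld Ω) |
        SignP Ω i pq.1 pq.2} = {pq | (pq.2.1 : Set ℂ) ⊆
          (Metric.closedBall (P155.U.ctr i) (i.2 : ℝ))ᶜ}ᶜ ∪
        ({pq | ∀ᵐ w ∂(volume.restrict Ω : Measure ℂ),
          w ∈ Metric.ball (P155.U.ctr i) (i.2 : ℝ) → (pq.2.2 - pq.1.2 : Fld Ω) w = 1} ∪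
        {pq | ∀ᵐ w ∂(volume.restrict Ω : Measure ℂ),
          w ∈ Metric.ball (P155.U.ctr i) (i.2 : ℝ) → (pq.2.2 - pq.1.2 : Fld Ω) w = -1}) := by
      ext pq
      simp only [SignP, mem_union, mem_compl_iff, mem_ofPred_eq]
      rw [subset_compl_iff_disjoint_left]
      constructor
      · intro h
        by_cases hd : Disjoint (Metric.closedBall (P155.U.ctr i) (i.2 : ℝ)) (pq.2.1 : Set ℂ)
        · exact Or.inr (h hi hd)
        · exact Or.inl hd
      · rintro (h | h)
        · intro _ hd
          exact absurd hd h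
        · intro _ _
          exact h
    rw [e]
    exact h1.measurableSet.compl.union ((h2 1).measurableSet.union (h2 (-1)).measurableSet)
  · have e : {pq : (NonemptyCompacts ℂ × Fld Ω) × (NonemptyCompacts ℂ × Fld Ω) |
        SignP Ω i pq.1 pq.2} = univ := by
      ext pq
      simp only [SignP, mem_univ, iff_true, mem_ofPred_eq]
      intro h
      exact absurd h hi
    rw [e]
    exact MeasurableSet.univ

theorem greenEnergy_nonneg (hb : Bornology.IsBounded Ω) {φ : ℂ → ℝ} (hφ : IsTest Ω φ)
    {U : Set ℂ} (hU : U ⊆ Ω) : 0 ≤ greenEnergy U φ := by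
  obtain ⟨M, hM⟩ := hφ.1.continuous.bounded_above_of_compact_support hφ.2.1
  have hM' : ∀ z, |φ z| ≤ M := fun z => by
    have := hM z
    rwa [Real.norm_eq_abs] at this
  have h0 : ∀ z, z ∉ Ω → φ z = 0 := fun z hz => P155.U.test_zero hφ hz
  exact le_csSup (P155.U.bdd_dval hb hM' h0 hU) ⟨0, P155.U.isTest_zero _, by simp⟩

/-- the separating observables on `Past Ω k` -/
noncomputable def obs (e : ℕ → ℂ → ℝ) (k : ℕ) :
    (Fin (k + 1) × ℕ) ⊕ (Fin (k + 1) × ℕ) → Past Ω k → ℝ
  | Sum.inl (l, n), p => Metric.infDist (denseSeq ℂ n) ((p l).1 : Set ℂ)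
  | Sum.inr (l, n), p => pr (p l).2 (e n)

theorem measurable_obs {e : ℕ → ℂ → ℝ} (he : ∀ n, IsTest Ω (e n)) (k : ℕ)
    (i : (Fin (k + 1) × ℕ) ⊕ (Fin (k + 1) × ℕ)) : Measurable (obs (Ω := Ω) e k i) := by
  obtain (⟨l, n⟩ | ⟨l, n⟩) := i
  · exact (continuous_infDist (denseSeq ℂ n)).measurable.comp
      (measurable_fst.comp (measurable_pi_apply l))
  · exact (measurable_pr (he n)).comp (measurable_snd.comp (measurable_pi_apply l))

theorem sep_obs {e : ℕ → ℂ → ℝ}
    (hsep : ∀ f g : Fld Ω, (∀ n, pr f (e n) = pr g (e n)) → f = g) (k : ℕ) (p q : Past Ω k)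
    (h : ∀ i, obs (Ω := Ω) e k i p = obs (Ω := Ω) e k i q) : p = q := by
  funext l
  apply Prod.ext
  · exact ext_infDist fun n => h (Sum.inl (l, n))
  · exact hsep _ _ fun n => h (Sum.inr (l, n))

theorem measurable_past (Ω : Set ℂ) (k : ℕ) : Measurable (past (Ω := Ω) k) :=
  measurable_pi_lambda _ fun _ => measurable_pi_apply _

/-- **U-CANON** -/
theorem canonStmt : CanonStmt := by
  intro Ω hΩ hb hne Θ mΘ P hP G H hS
  obtain ⟨e, he, hsep⟩ := exists_fam hΩ
  obtain ⟨R, hR, hRf⟩ := exists_rec e he hsep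
  set a : Θ → Sp Ω := fun x k => (G k x, R (fun n => H k x (e n))) with ha
  have hGm : ∀ k, Measurable (G k) := fun k => (hS.meas k).1
  have hHm : ∀ k φ, IsTest Ω φ → Measurable (fun x => H k x φ) := fun k φ hφ =>
    ((hS.meas k).2 φ hφ).1
  have ham : Measurable a := by
    apply measurable_pi_lambda
    intro k
    exact (hGm k).prodMk (hR.comp (measurable_pi_lambda _ fun n => hHm k _ (he n)))
  -- the representation
  have hrep : ∀ᵐ x ∂P, ∀ k : ℕ, (∀ φ, IsTest Ω φ → pr (a x k).2 φ = H k x φ) ∧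
      ∀ᵐ z ∂(volume.restrict Ω : Measure ℂ), |(a x k).2 z| ≤ (k : ℝ) := by
    filter_upwards [hS.rep] with x hx k
    obtain ⟨g, hg, hgb, hgH⟩ := hx k
    have hgL := memLp_of_bound hb hg hgb
    have h1 : (a x k).2 = hgL.toLp g := by
      rw [ha]
      simp only
      have : (fun n => H k x (e n)) = fun n => pr (hgL.toLp g : Fld Ω) (e n) := by
        funext n
        rw [pr_toLp hΩ.measurableSet hgL (he n)]
        exact hgH _ (he n)
      rw [this, hRf]
    rw [h1]
    constructor
    · intro φ hφ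
      rw [pr_toLp hΩ.measurableSet hgL hφ]
      exact (hgH φ hφ).symm
    · filter_upwards [hgL.coeFn_toLp] with z hz
      rw [hz]
      exact hgb z
  have hsm : ∀ k, Measurable (fun s : Sp Ω => (s k).1) := fun k =>
    measurable_fst.comp (measurable_pi_apply k)
  have hsm2 : ∀ k, Measurable (fun s : Sp Ω => (s k).2) := fun k =>
    measurable_snd.comp (measurable_pi_apply k)
  refine ⟨P.map a, ⟨Measure.isProbabilityMeasure_map ham.aemeasurable, ?_, ?_, ?_, ?_, ?_, ?_, ?_⟩,
    ?_⟩
  · -- zero
    rw [ae_map_iff ham.aemeasurable]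
    · filter_upwards [hS.zero, hrep] with x hx hx2
      refine ⟨hx.1, ?_⟩
      apply hsep
      intro n
      rw [(hx2 0).1 _ (he n), hx.2 _ (he n), pr_zero (he n)]
    · exact ((hsm 0) (isClosed_eq_set (frontier Ω)).measurableSet).inter
        ((hsm2 0) (isClosed_singleton (x := (0 : Fld Ω))).measurableSet)
  · -- bdd
    rw [ae_all_iff]
    intro k
    rw [ae_map_iff ham.aemeasurable]
    · filter_upwards [hrep] with x hx
      exact (hx k).2
    · exact (hsm2 k) (isClosed_bdd hb (k : ℝ)).measurableSet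
  · -- mono
    rw [ae_all_iff]
    intro k
    rw [ae_map_iff ham.aemeasurable]
    · filter_upwards [hS.mono] with x hx
      exact hx k
    · have h1 : MeasurableSet {s : Sp Ω | ((s k).1 : Set ℂ) ⊆ (s (k + 1)).1} :=
        ((hsm k).prodMk (hsm (k + 1))) isClosed_subset.measurableSet
      exact h1.inter ((hsm k)
        (NonemptyCompacts.isClosed_subsets_of_isClosed isClosed_closure).measurableSet)
  · -- conn
    rw [ae_all_iff]
    intro k
    rw [ae_map_iff ham.aemeasurable]
    · filter_upwards [hS.conn] with x hx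
      exact hx k
    · exact (hsm k) (KConn.isClosed_connected (α := ℂ)).measurableSet
  · -- null
    rw [ae_all_iff]
    intro k
    rw [ae_map_iff ham.aemeasurable]
    · filter_upwards [hS.null] with x hx
      exact hx k
    · exact (hsm k) (measurable_null hb)
  · -- sign
    have hsg : ∀ᵐ s ∂(P.map a), ∀ k, ∀ i : P155.U.Idx, SignP Ω i (s k) (s (k + 1)) := by
      rw [ae_all_iff]
      intro k
      rw [ae_all_iff]
      intro i
      rw [ae_map_iff ham.aemeasurable]
      · filter_upwards [hS.sign, hrep] with x hx hx2 h1 h2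
        have hr : 0 ≤ (i.2 : ℝ) ∨ (i.2 : ℝ) < 0 := le_or_gt _ _
        by_cases hr : 0 < (i.2 : ℝ)
        · obtain ⟨t, ht, hφ⟩ := hx k _ _ hr h1 h2
          have h3 := eq_const_of_pr hΩ.measurableSet Metric.isOpen_ball
            (Metric.ball_subset_closedBall.trans h1) (f := (a x (k + 1)).2 - (a x k).2) (t := t)
            (U := Metric.ball (P155.U.ctr i) (i.2 : ℝ)) (by
            intro φ hφt
            have hφΩ : IsTest Ω φ :=
              ⟨hφt.1, hφt.2.1, hφt.2.2.trans (Metric.ball_subset_closedBall.trans h1)⟩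
            rw [pr_sub _ _ hφΩ, (hx2 (k + 1)).1 _ hφΩ, (hx2 k).1 _ hφΩ]
            exact hφ φ hφt)
          rcases ht with rfl | rfl
          · exact Or.inl h3
          · exact Or.inr h3
        · left
          filter_upwards with w hw
          rw [Metric.ball_eq_empty.2 (not_lt.1 hr)] at hw
          exact absurd hw (notMem_empty _)
      · have h1 : Measurable (fun s : Sp Ω => (s k, s (k + 1))) :=
          (measurable_pi_apply k).prodMk (measurable_pi_apply (k + 1))
        exact h1 (measurable_signP hΩ i)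
    filter_upwards [hsg] with s hs k z r hr hzΩ hdis
    have hopen : IsOpen (Ω \ ((s (k + 1)).1 : Set ℂ)) :=
      hΩ.sdiff (s (k + 1)).1.isCompact.isClosed
    have hsub : Metric.closedBall z r ⊆ Ω \ ((s (k + 1)).1 : Set ℂ) := fun w hw =>
      ⟨hzΩ hw, fun hw' => (Set.disjoint_left.1 hdis) hw hw'⟩
    obtain ⟨i, hi1, hi2⟩ := exists_rat_ball hopen hr hsub
    have h1 := hs k i (hi1.trans sdiff_subset)
      (Set.disjoint_left.2 fun w hw hw' => (hi1 hw).2 hw')
    rcases h1 with h1 | h1
    · refine ⟨1, Or.inl rfl, ?_⟩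
      filter_upwards [h1, Lp.coeFn_sub (s (k + 1)).2 (s k).2] with w hw hw2 hw3
      rw [← hw (hi2 hw3), hw2]
      rfl
    · refine ⟨-1, Or.inr rfl, ?_⟩
      filter_upwards [h1, Lp.coeFn_sub (s (k + 1)).2 (s k).2] with w hw hw2 hw3
      rw [← hw (hi2 hw3), hw2]
      rfl
  · -- gff
    intro k φ hφ Ψ hΨ
    have hgm : ∀ l, Measurable (fun s : Sp Ω => greenEnergy (Ω \ ((s l).1 : Set ℂ)) φ) := fun l =>
      (P155.U.measurable_green hb hφ).comp (hsm l)
    have hpm : ∀ l, Measurable (fun s : Sp Ω => pr (s l).2 φ) := fun l =>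
      (measurable_pr hφ).comp (hsm2 l)
    have hg0 : ∀ (l : ℕ) (s : Sp Ω), 0 ≤ greenEnergy (Ω \ ((s l).1 : Set ℂ)) φ := fun l s =>
      greenEnergy_nonneg hb hφ sdiff_subset
    have hum : Measurable (fun s : Sp Ω => Complex.exp (Complex.I * cst *
        (pr (s (k + 1)).2 φ - pr (s k).2 φ) - greenEnergy (Ω \ (s (k + 1)).1) φ / 2)) := by
      apply Complex.measurable_exp.comp
      exact (((Complex.measurable_ofReal.comp (hpm (k + 1))).sub
        (Complex.measurable_ofReal.comp (hpm k))).const_mul _).sub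
        ((Complex.measurable_ofReal.comp (hgm (k + 1))).div_const 2)
    have hvm : Measurable (fun s : Sp Ω =>
        Complex.exp (- greenEnergy (Ω \ (s k).1) φ / 2)) := by
      apply Complex.measurable_exp.comp
      exact ((Complex.measurable_ofReal.comp (hgm k)).neg).div_const 2
    refine integral_ext_complex (measurable_obs he k) (sep_obs hsep k) (measurable_past Ω k)
      hum hvm ?_ ?_ ?_ hΨ.1 hΨ.2
    · intro s
      rw [Complex.norm_exp, Real.exp_le_one_iff]
      have := hg0 (k + 1) s
      simp only [Complex.sub_re, Complex.mul_re, Complex.I_re, Complex.I_im, Complex.ofReal_re,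
        Complex.ofReal_im, Complex.mul_im, Complex.sub_im, Complex.div_ofNat_re]
      linarith
    · intro s
      rw [Complex.norm_exp, Real.exp_le_one_iff]
      have := hg0 k s
      simp only [Complex.neg_re, Complex.ofReal_re, Complex.div_ofNat_re]
      linarith
    · intro J F hF hFb
      set m : ℕ := J.sup (Sum.elim (fun p => p.2) (fun p => p.2)) + 1 with hm
      have hlt : ∀ (l : Fin (k + 1)) (n : ℕ), Sum.inr (l, n) ∈ J → n < m := by
        intro l n hj
        have : Sum.elim (fun p : Fin (k + 1) × ℕ => p.2) (fun p : Fin (k + 1) × ℕ => p.2)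
          (Sum.inr (l, n)) ≤ J.sup (Sum.elim (fun p => p.2) (fun p => p.2)) := Finset.le_sup hj
        simp only [Sum.elim_inr] at this
        omega
      let g : (Fin (k + 1) → NonemptyCompacts ℂ) × (Fin (k + 1) → Fin m → ℝ) → (J → ℝ) :=
        fun p j => match j with
        | ⟨Sum.inl (l, n), _⟩ => Metric.infDist (denseSeq ℂ n) (p.1 l : Set ℂ)
        | ⟨Sum.inr (l, n), hj⟩ => p.2 l ⟨n, hlt l n hj⟩
      have hgc : Continuous g := by
        apply continuous_pi
        rintro ⟨(⟨l, n⟩ | ⟨l, n⟩), hj⟩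
        · exact (continuous_infDist _).comp ((continuous_apply l).comp continuous_fst)
        · exact (continuous_apply _).comp ((continuous_apply l).comp continuous_snd)
      have hgff := hS.gff k m (fun i => e i) φ (fun i => he _) hφ (fun p => F (g p))
        (hF.comp hgc) (by
          obtain ⟨C, hC⟩ := hFb
          exact ⟨C, fun y => hC _⟩)
      have hFm : Measurable (fun s : Sp Ω => (F (fun j : J => obs e k j (past k s)) : ℂ)) :=
        Complex.measurable_ofReal.comp (hF.measurable.comp (measurable_pi_lambda _ fun j =>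
          (measurable_obs he k j).comp (measurable_past Ω k)))
      have hm1 : Measurable (fun s : Sp Ω => (F (fun j : J => obs e k j (past k s)) : ℂ) *
          Complex.exp (Complex.I * cst * (pr (s (k + 1)).2 φ - pr (s k).2 φ) -
            greenEnergy (Ω \ (s (k + 1)).1) φ / 2)) := hFm.mul hum
      have hm2 : Measurable (fun s : Sp Ω => (F (fun j : J => obs e k j (past k s)) : ℂ) *
          Complex.exp (- greenEnergy (Ω \ (s k).1) φ / 2)) := hFm.mul hvm
      rw [integral_map ham.aemeasurable hm1.aestronglyMeasurable,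
        integral_map ham.aemeasurable hm2.aestronglyMeasurable]
      have hFe : ∀ᵐ x ∂P, F (g (fun j => G j x, fun j i => H j x (e i))) =
          F (fun j : J => obs e k j (past k (a x))) := by
        filter_upwards [hrep] with x hx
        congr 1
        funext j
        obtain ⟨(⟨l, n⟩ | ⟨l, n⟩), hj⟩ := j
        · rfl
        · exact ((hx l).1 _ (he n)).symm
      refine Eq.trans (integral_congr_ae ?_) (hgff.trans (integral_congr_ae ?_))
      · filter_upwards [hFe, hrep] with x hx hx2
        rw [hx, (hx2 (k + 1)).1 φ hφ, (hx2 k).1 φ hφ]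
        rfl
      · filter_upwards [hFe] with x hx
        rw [hx]
  · -- law
    intro k m χ hχ F hF hFb
    rw [integral_map ham.aemeasurable]
    · apply integral_congr_ae
      filter_upwards [hrep] with x hx
      congr 2
      funext l i
      exact ((hx l).1 _ (hχ i)).symm
    · apply Measurable.aestronglyMeasurable
      apply hF.measurable.comp
      apply Measurable.prodMk
      · exact measurable_pi_lambda _ fun l => hsm l
      · exact measurable_pi_lambda _ fun l => measurable_pi_lambda _ fun i =>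
          (measurable_pr (hχ i)).comp (hsm2 l)

end Vale.Agent.P155.U613
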