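import Mathlib

/-!
# P155 uniqueness: measures determined by the finite dimensional laws of a separating family
-/

namespace Vale.Agent.P155.U613

open MeasureTheory Set TopologicalSpace

section

variable {X : Type*} [MeasurableSpace X] [StandardBorelSpace X] {ι : Type*} [Countable ι]

/-- Finite measures on a standard Borel space are determined by the finite dimensional laws of
a countable separating family of functions. -/
theorem measure_ext {f : ι → X → ℝ} (hf : ∀ i, Measurable (f i))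
    (hsep : ∀ x y, (∀ i, f i x = f i y) → x = y) {μ ν : Measure X} [IsFiniteMeasure μ]
    [IsFiniteMeasure ν]
    (h : ∀ (J : Finset ι) (F : (J → ℝ) → ℝ), Continuous F → (∃ C, ∀ y, |F y| ≤ C) →
      ∫ x, F (fun j => f j x) ∂μ = ∫ x, F (fun j => f j x) ∂ν) : μ = ν := by
  set Φ : X → (ι → ℝ) := fun x i => f i x with hΦ
  have hΦm : Measurable Φ := measurable_pi_lambda _ hf
  have hinj : Function.Injective Φ := fun x y hxy => hsep x y fun i => congrFun hxy i
  have hemb : MeasurableEmbedding Φ := hΦm.measurableEmbedding hinj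
  have hmap : μ.map Φ = ν.map Φ := by
    have key : ∀ J : Finset ι, (ν.map Φ).map J.restrict = (μ.map Φ).map J.restrict := by
      intro J
      rw [Measure.map_map (Finset.measurable_restrict J) hΦm,
        Measure.map_map (Finset.measurable_restrict J) hΦm]
      have hJm : Measurable (J.restrict ∘ Φ) := (Finset.measurable_restrict J).comp hΦm
      apply ext_of_forall_integral_eq_of_IsFiniteMeasure
      intro F
      rw [integral_map hJm.aemeasurable F.continuous.measurable.aestronglyMeasurable,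
        integral_map hJm.aemeasurable F.continuous.measurable.aestronglyMeasurable]
      exact (h J F F.continuous ⟨‖F‖, fun y => F.norm_coe_le_norm y⟩).symm
    exact IsProjectiveLimit.unique
      (P := fun J => (μ.map Φ).map (J.restrict (π := fun _ => ℝ)))
      (fun J => rfl) (fun J => key J)
  ext S hS
  have e : Φ ⁻¹' (Φ '' S) = S := hinj.preimage_image S
  have hSm : MeasurableSet (Φ '' S) := hemb.measurableSet_image.2 hS
  have h1 : μ.map Φ (Φ '' S) = ν.map Φ (Φ '' S) := by rw [hmap]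
  rwa [Measure.map_apply hΦm hSm, Measure.map_apply hΦm hSm, e] at h1

omit [StandardBorelSpace X] in
theorem integral_map_withDensity {Θ : Type*} [MeasurableSpace Θ] {P : Measure Θ}
    {b : Θ → X} (hb : Measurable b) {u : Θ → ℝ} (hu : Measurable u) (hu0 : ∀ x, 0 ≤ u x)
    {Ψ : X → ℝ} (hΨ : Measurable Ψ) :
    ∫ x, Ψ x ∂((P.withDensity (fun x => ENNReal.ofReal (u x))).map b) =
      ∫ x, Ψ (b x) * u x ∂P := by
  rw [integral_map hb.aemeasurable hΨ.aestronglyMeasurable,
    integral_withDensity_eq_integral_toReal_smul hu.ennreal_ofReal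
      (Filter.Eventually.of_forall fun x => ENNReal.ofReal_lt_top)]
  apply integral_congr_ae
  filter_upwards with x
  rw [ENNReal.toReal_ofReal (hu0 x), smul_eq_mul, mul_comm]

/-- Extension of an identity from finite dimensional continuous functions to bounded measurable
functions. -/
theorem integral_ext_real {f : ι → X → ℝ} (hf : ∀ i, Measurable (f i))
    (hsep : ∀ x y, (∀ i, f i x = f i y) → x = y)
    {Θ : Type*} [MeasurableSpace Θ] {P : Measure Θ} [IsFiniteMeasure P]
    {b : Θ → X} (hb : Measurable b) {u v : Θ → ℝ} (hu : Measurable u) (hv : Measurable v)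
    (hu1 : ∀ x, |u x| ≤ 1) (hv1 : ∀ x, |v x| ≤ 1)
    (h : ∀ (J : Finset ι) (F : (J → ℝ) → ℝ), Continuous F → (∃ C, ∀ y, |F y| ≤ C) →
      ∫ x, F (fun j => f j (b x)) * u x ∂P = ∫ x, F (fun j => f j (b x)) * v x ∂P)
    {Ψ : X → ℝ} (hΨ : Measurable Ψ) (hΨb : ∃ C, ∀ x, |Ψ x| ≤ C) :
    ∫ x, Ψ (b x) * u x ∂P = ∫ x, Ψ (b x) * v x ∂P := by
  -- shift to nonnegative densities
  have hfin : ∀ w : Θ → ℝ, Measurable w → (∀ x, |w x| ≤ 1) →
      IsFiniteMeasure ((P.withDensity (fun x => ENNReal.ofReal (1 + w x))).map b) := by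
    intro w hw hw1
    have : IsFiniteMeasure (P.withDensity (fun x => ENNReal.ofReal (1 + w x))) := by
      apply isFiniteMeasure_withDensity_ofReal
      apply Integrable.hasFiniteIntegral
      refine Integrable.of_bound (hw.const_add 1).aestronglyMeasurable 2 ?_
      filter_upwards with x
      have := abs_le.1 (hw1 x)
      rw [Real.norm_eq_abs, abs_le]
      constructor <;> linarith
    infer_instance
  have hint : ∀ w : Θ → ℝ, Measurable w → (∀ x, |w x| ≤ 1) → ∀ Ψ : X → ℝ, Measurable Ψ →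
      (∃ C, ∀ x, |Ψ x| ≤ C) →
      ∫ x, Ψ x ∂((P.withDensity (fun x => ENNReal.ofReal (1 + w x))).map b) =
        ∫ x, Ψ (b x) ∂P + ∫ x, Ψ (b x) * w x ∂P := by
    intro w hw hw1 Ψ hΨ hΨb
    obtain ⟨C, hC⟩ := hΨb
    rw [integral_map_withDensity hb (hw.const_add 1) (fun x => by
      have := (abs_le.1 (hw1 x)).1
      linarith) hΨ, ← integral_add]
    · apply integral_congr_ae
      filter_upwards with x
      ring
    · exact Integrable.of_bound (hΨ.comp hb).aestronglyMeasurable C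
        (Filter.Eventually.of_forall fun x => hC _)
    · have hm : Measurable (fun x => Ψ (b x) * w x) := (hΨ.comp hb).mul hw
      refine Integrable.of_bound hm.aestronglyMeasurable C ?_
      filter_upwards with x
      have h1 : |Ψ (b x)| ≤ C := hC _
      have h2 : 0 ≤ C := (abs_nonneg _).trans h1
      rw [Real.norm_eq_abs, abs_mul]
      calc |Ψ (b x)| * |w x| ≤ C * 1 := mul_le_mul h1 (hw1 x) (abs_nonneg _) h2
        _ = C := mul_one C
  have hU := hfin u hu hu1
  have hV := hfin v hv hv1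
  have heq : (P.withDensity (fun x => ENNReal.ofReal (1 + u x))).map b =
      (P.withDensity (fun x => ENNReal.ofReal (1 + v x))).map b := by
    apply measure_ext hf hsep
    intro J F hF hFb
    have hm : Measurable (fun x => F (fun j : J => f j x)) :=
      hF.measurable.comp (measurable_pi_lambda _ fun j => hf j)
    have hFb' : ∃ C, ∀ x : X, |F (fun j : J => f j x)| ≤ C := by
      obtain ⟨C, hC⟩ := hFb
      exact ⟨C, fun x => hC _⟩
    rw [hint u hu hu1 _ hm hFb', hint v hv hv1 _ hm hFb', h J F hF hFb]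
  have h1 := hint u hu hu1 Ψ hΨ hΨb
  have h2 := hint v hv hv1 Ψ hΨ hΨb
  rw [heq] at h1
  linarith

/-- The complex version. -/
theorem integral_ext_complex {f : ι → X → ℝ} (hf : ∀ i, Measurable (f i))
    (hsep : ∀ x y, (∀ i, f i x = f i y) → x = y)
    {Θ : Type*} [MeasurableSpace Θ] {P : Measure Θ} [IsFiniteMeasure P]
    {b : Θ → X} (hb : Measurable b) {u v : Θ → ℂ} (hu : Measurable u) (hv : Measurable v)
    (hu1 : ∀ x, ‖u x‖ ≤ 1) (hv1 : ∀ x, ‖v x‖ ≤ 1)
    (h : ∀ (J : Finset ι) (F : (J → ℝ) → ℝ), Continuous F → (∃ C, ∀ y, |F y| ≤ C) →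
      ∫ x, (F (fun j => f j (b x)) : ℂ) * u x ∂P = ∫ x, (F (fun j => f j (b x)) : ℂ) * v x ∂P)
    {Ψ : X → ℝ} (hΨ : Measurable Ψ) (hΨb : ∃ C, ∀ x, |Ψ x| ≤ C) :
    ∫ x, (Ψ (b x) : ℂ) * u x ∂P = ∫ x, (Ψ (b x) : ℂ) * v x ∂P := by
  have hint : ∀ w : Θ → ℂ, Measurable w → (∀ x, ‖w x‖ ≤ 1) → ∀ Ψ : X → ℝ, Measurable Ψ →
      (∃ C, ∀ x, |Ψ x| ≤ C) → Integrable (fun x => (Ψ (b x) : ℂ) * w x) P := by
    intro w hw hw1 Ψ hΨ hΨb
    obtain ⟨C, hC⟩ := hΨb
    have hm : Measurable (fun x => (Ψ (b x) : ℂ) * w x) :=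
      (Complex.measurable_ofReal.comp (hΨ.comp hb)).mul hw
    refine Integrable.of_bound hm.aestronglyMeasurable C ?_
    filter_upwards with x
    have h1 : |Ψ (b x)| ≤ C := hC _
    have h2 : 0 ≤ C := (abs_nonneg _).trans h1
    rw [norm_mul, Complex.norm_real, Real.norm_eq_abs]
    calc |Ψ (b x)| * ‖w x‖ ≤ C * 1 := mul_le_mul h1 (hw1 x) (norm_nonneg _) h2
      _ = C := mul_one C
  have hre : ∀ w : Θ → ℂ, Measurable w → (∀ x, ‖w x‖ ≤ 1) → ∀ Ψ : X → ℝ, Measurable Ψ →
      (∃ C, ∀ x, |Ψ x| ≤ C) →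
      (∫ x, (Ψ (b x) : ℂ) * w x ∂P).re = ∫ x, Ψ (b x) * (w x).re ∂P := by
    intro w hw hw1 Ψ hΨ hΨb
    have := integral_re (𝕜 := ℂ) (hint w hw hw1 Ψ hΨ hΨb)
    simp only [RCLike.re_to_complex] at this
    rw [← this]
    simp [Complex.mul_re]
  have him : ∀ w : Θ → ℂ, Measurable w → (∀ x, ‖w x‖ ≤ 1) → ∀ Ψ : X → ℝ, Measurable Ψ →
      (∃ C, ∀ x, |Ψ x| ≤ C) →
      (∫ x, (Ψ (b x) : ℂ) * w x ∂P).im = ∫ x, Ψ (b x) * (w x).im ∂P := by
    intro w hw hw1 Ψ hΨ hΨb
    have := integral_im (𝕜 := ℂ) (hint w hw hw1 Ψ hΨ hΨb)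
    simp only [RCLike.im_to_complex] at this
    rw [← this]
    simp [Complex.mul_im]
  have hfm : ∀ (J : Finset ι) (F : (J → ℝ) → ℝ), Continuous F →
      Measurable (fun x => F (fun j : J => f j x)) := fun J F hF =>
    hF.measurable.comp (measurable_pi_lambda _ fun j => hf j)
  have hfb : ∀ (J : Finset ι) (F : (J → ℝ) → ℝ), (∃ C, ∀ y, |F y| ≤ C) →
      ∃ C, ∀ x : X, |F (fun j : J => f j x)| ≤ C := by
    rintro J F ⟨C, hC⟩
    exact ⟨C, fun x => hC _⟩
  apply Complex.ext
  · rw [hre u hu hu1 Ψ hΨ hΨb, hre v hv hv1 Ψ hΨ hΨb]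
    apply integral_ext_real hf hsep hb (Complex.measurable_re.comp hu)
      (Complex.measurable_re.comp hv) (fun x => (Complex.abs_re_le_norm _).trans (hu1 x))
      (fun x => (Complex.abs_re_le_norm _).trans (hv1 x)) _ hΨ hΨb
    intro J F hF hFb
    have := congrArg Complex.re (h J F hF hFb)
    rw [hre u hu hu1 (fun x => F (fun j : J => f j x)) (hfm J F hF) (hfb J F hFb),
      hre v hv hv1 (fun x => F (fun j : J => f j x)) (hfm J F hF) (hfb J F hFb)] at this
    exact this
  · rw [him u hu hu1 Ψ hΨ hΨb, him v hv hv1 Ψ hΨ hΨb]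
    apply integral_ext_real hf hsep hb (Complex.measurable_im.comp hu)
      (Complex.measurable_im.comp hv) (fun x => (Complex.abs_im_le_norm _).trans (hu1 x))
      (fun x => (Complex.abs_im_le_norm _).trans (hv1 x)) _ hΨ hΨb
    intro J F hF hFb
    have := congrArg Complex.im (h J F hF hFb)
    rw [him u hu hu1 (fun x => F (fun j : J => f j x)) (hfm J F hF) (hfb J F hFb),
      him v hv hv1 (fun x => F (fun j : J => f j x)) (hfm J F hF) (hfb J F hFb)] at this
    exact this

end

end Vale.Agent.P155.U613
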