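import Vale.Agent.P155.U.Iface
import Vale.Agent.P155.U.Family
import Vale.Agent.P155.U613.Meas

/-!
# P155 uniqueness: fields and their pairings; a countable separating family of test functions
-/

namespace Vale.Agent.P155.U613

open MeasureTheory Set TopologicalSpace Uq

variable {Ω : Set ℂ}

theorem memLp_test {φ : ℂ → ℝ} (hφ : IsTest Ω φ) :
    MemLp φ 2 (volume.restrict Ω : Measure ℂ) :=
  (hφ.1.continuous.memLp_of_hasCompactSupport hφ.2.1).restrict _

theorem pr_eq_inner (f : Fld Ω) {φ : ℂ → ℝ} (hφ : IsTest Ω φ) :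
    pr f φ = inner ℝ ((memLp_test hφ).toLp φ) f := by
  rw [L2.inner_def, pr]
  apply integral_congr_ae
  filter_upwards [(memLp_test hφ).coeFn_toLp] with z hz
  rw [hz]
  simp [mul_comm]

theorem continuous_pr {φ : ℂ → ℝ} (hφ : IsTest Ω φ) : Continuous (fun f : Fld Ω => pr f φ) := by
  simp only [pr_eq_inner _ hφ]
  exact continuous_const.inner continuous_id

theorem measurable_pr {φ : ℂ → ℝ} (hφ : IsTest Ω φ) : Measurable (fun f : Fld Ω => pr f φ) :=
  (continuous_pr hφ).measurable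

theorem pr_sub (f g : Fld Ω) {φ : ℂ → ℝ} (hφ : IsTest Ω φ) :
    pr (f - g) φ = pr f φ - pr g φ := by
  rw [pr_eq_inner _ hφ, pr_eq_inner _ hφ, pr_eq_inner _ hφ, inner_sub_right]

theorem pr_zero {φ : ℂ → ℝ} (hφ : IsTest Ω φ) : pr (0 : Fld Ω) φ = 0 := by
  rw [pr_eq_inner _ hφ, inner_zero_right]

/-- integrals over `ℂ` of functions multiplied by a test function in `U ⊆ Ω` -/
theorem integral_test_eq (hΩ : MeasurableSet Ω) {U : Set ℂ} (hU : U ⊆ Ω) {φ : ℂ → ℝ}
    (hφ : IsTest U φ) (g : ℂ → ℝ) : ∫ z in Ω, g z * φ z = ∫ z, g z * φ z := by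
  rw [← integral_indicator hΩ]
  congr 1
  funext z
  by_cases hz : z ∈ Ω
  · rw [indicator_of_mem hz]
  · rw [indicator_of_notMem hz]
    have h0 : φ z = 0 := by
      by_contra h
      exact hz (hU (hφ.2.2 (subset_tsupport φ h)))
    rw [h0, mul_zero]

theorem memLp_of_bound (hb : Bornology.IsBounded Ω) {g : ℂ → ℝ} (hg : Measurable g) {C : ℝ}
    (hC : ∀ z, |g z| ≤ C) : MemLp g 2 (volume.restrict Ω : Measure ℂ) := by
  have : IsFiniteMeasure (volume.restrict Ω : Measure ℂ) := by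
    constructor
    rw [Measure.restrict_apply_univ]
    exact hb.measure_lt_top
  exact MemLp.of_bound hg.aestronglyMeasurable C (Filter.Eventually.of_forall fun z => hC z)

theorem pr_toLp (hΩ : MeasurableSet Ω) {g : ℂ → ℝ} (hg : MemLp g 2 (volume.restrict Ω : Measure ℂ))
    {φ : ℂ → ℝ} (hφ : IsTest Ω φ) : pr (hg.toLp g : Fld Ω) φ = ∫ z, g z * φ z := by
  rw [← integral_test_eq hΩ Subset.rfl hφ, pr]
  apply integral_congr_ae
  filter_upwards [hg.coeFn_toLp] with z hz
  rw [hz]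

/-- a field which pairs like the constant `t` with the test functions in `U` is equal to `t` -/
theorem eq_const_of_pr (hΩ : MeasurableSet Ω) {U : Set ℂ} (hU : IsOpen U) (hUΩ : U ⊆ Ω)
    {f : Fld Ω} {t : ℝ} (h : ∀ φ, IsTest U φ → pr f φ = t * ∫ z, φ z) :
    ∀ᵐ z ∂(volume.restrict Ω : Measure ℂ), z ∈ U → f z = t := by
  have hloc : LocallyIntegrableOn (fun z => f z - t) U (volume.restrict Ω : Measure ℂ) := by
    apply LocallyIntegrable.locallyIntegrableOn
    have h1 : LocallyIntegrable (f : ℂ → ℝ) (volume.restrict Ω : Measure ℂ) :=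
      (Lp.memLp f).locallyIntegrable (by norm_num)
    have h2 : LocallyIntegrable (fun _ : ℂ => t) (volume.restrict Ω : Measure ℂ) :=
      locallyIntegrable_const t
    exact h1.sub h2
  have key := hU.ae_eq_zero_of_integral_contDiff_smul_eq_zero hloc (by
    intro φ h1 h2 h3
    have hφ : IsTest U φ := ⟨h1, h2, h3⟩
    have hφΩ : IsTest Ω φ := ⟨h1, h2, h3.trans hUΩ⟩
    have hi1 : Integrable (fun z => f z * φ z) (volume.restrict Ω : Measure ℂ) := by
      have := (Lp.memLp f).integrable_mul (memLp_test hφΩ)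
      exact this
    have hi2 : Integrable (fun z => t * φ z) (volume.restrict Ω : Measure ℂ) :=
      ((h1.continuous.integrable_of_hasCompactSupport h2).const_mul t).restrict
    have e : ∀ z, φ z • (f z - t) = f z * φ z - t * φ z := by
      intro z
      rw [smul_eq_mul]
      ring
    simp only [e]
    rw [integral_sub hi1 hi2, integral_test_eq hΩ hUΩ hφ (fun _ => t), integral_const_mul]
    have := h φ hφ
    rw [pr] at this
    rw [this, sub_self])
  filter_upwards [key] with z hz hzU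
  linarith [hz hzU]

theorem pr_of_eq_const (hΩ : MeasurableSet Ω) {U : Set ℂ} (hUΩ : U ⊆ Ω) {f : Fld Ω} {t : ℝ}
    (h : ∀ᵐ z ∂(volume.restrict Ω : Measure ℂ), z ∈ U → f z = t) {φ : ℂ → ℝ} (hφ : IsTest U φ) :
    pr f φ = t * ∫ z, φ z := by
  rw [← integral_const_mul, ← integral_test_eq hΩ hUΩ hφ (fun _ => t), pr]
  apply integral_congr_ae
  filter_upwards [h] with z hz
  by_cases hzU : z ∈ U
  · rw [hz hzU]
  · have h0 : φ z = 0 := by
      by_contra h
      exact hzU (hφ.2.2 (subset_tsupport φ h))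
    rw [h0, mul_zero, mul_zero]

theorem fld_zero (hΩ : IsOpen Ω) {f : Fld Ω} (h : ∀ φ, IsTest Ω φ → pr f φ = 0) : f = 0 := by
  have h1 := eq_const_of_pr hΩ.measurableSet hΩ Subset.rfl (f := f) (t := 0) (fun φ hφ => by
    rw [h φ hφ, zero_mul])
  rw [Lp.eq_zero_iff_ae_eq_zero]
  filter_upwards [h1, ae_restrict_mem hΩ.measurableSet] with z hz hz'
  exact hz hz'

theorem fld_ext (hΩ : IsOpen Ω) {f g : Fld Ω} (h : ∀ φ, IsTest Ω φ → pr f φ = pr g φ) :
    f = g := by
  rw [← sub_eq_zero]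
  apply fld_zero hΩ
  intro φ hφ
  rw [pr_sub _ _ hφ, h φ hφ, sub_self]

/-- **A countable separating family of test functions.** -/
theorem exists_fam (hΩ : IsOpen Ω) : ∃ e : ℕ → ℂ → ℝ, (∀ n, IsTest Ω (e n)) ∧
    ∀ f g : Fld Ω, (∀ n, pr f (e n) = pr g (e n)) → f = g := by
  set S : Set (Fld Ω) := {x | ∃ φ, ∃ hφ : IsTest Ω φ, x = (memLp_test hφ).toLp φ} with hS
  have hsep : TopologicalSpace.IsSeparable S := by
    have : SeparableSpace S := inferInstance
    exact IsSeparable.of_subtype S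
  obtain ⟨c, hcS, hcc, hSc⟩ := hsep.exists_countable_dense_subset
  have hne : S.Nonempty := ⟨_, 0, U.isTest_zero _, rfl⟩
  have hcne : c.Nonempty := by
    by_contra h
    rw [not_nonempty_iff_eq_empty] at h
    rw [h, closure_empty, subset_empty_iff] at hSc
    exact hne.ne_empty hSc
  obtain ⟨x, hx⟩ := hcc.exists_eq_range hcne
  have hxS : ∀ n, ∃ φ, ∃ hφ : IsTest Ω φ, x n = (memLp_test hφ).toLp φ := by
    intro n
    apply hcS
    rw [hx]
    exact mem_range_self n
  choose e he hxe using hxS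
  refine ⟨e, he, ?_⟩
  intro f g hfg
  apply fld_ext hΩ
  intro φ hφ
  rw [← sub_eq_zero, ← pr_sub _ _ hφ]
  have hmem : (memLp_test hφ).toLp φ ∈ closure c := hSc ⟨φ, hφ, rfl⟩
  have hcl : IsClosed {y : Fld Ω | inner ℝ y (f - g) = (0 : ℝ)} :=
    isClosed_eq (continuous_id.inner continuous_const) continuous_const
  have hsub : c ⊆ {y : Fld Ω | inner ℝ y (f - g) = (0 : ℝ)} := by
    rw [hx]
    rintro _ ⟨n, rfl⟩
    show inner ℝ (x n) (f - g) = (0 : ℝ)
    rw [hxe n, ← pr_eq_inner _ (he n), pr_sub _ _ (he n), hfg n, sub_self]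
  have := hcl.closure_subset_iff.2 hsub hmem
  rw [pr_eq_inner _ hφ]
  exact this

end Vale.Agent.P155.U613
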