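import Vale.Agent.P155.U613.Sep

/-!
# P155 uniqueness: measurability of the properties in `Canon`
-/

namespace Vale.Agent.P155.U613

open MeasureTheory Set TopologicalSpace Uq

variable {Ω : Set ℂ}

theorem std_past (Ω : Set ℂ) (k : ℕ) : StandardBorelSpace (Past Ω k) := inferInstance

theorem continuous_infDist (x : ℂ) :
    Continuous (fun K : NonemptyCompacts ℂ => Metric.infDist x K) :=
  (Metric.lipschitz_infDist_set x).continuous

theorem subset_iff_infDist {K L : NonemptyCompacts ℂ} :
    (K : Set ℂ) ⊆ L ↔ ∀ x : ℂ, Metric.infDist x L ≤ Metric.infDist x K := by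
  constructor
  · intro h x
    exact Metric.infDist_le_infDist_of_subset h K.nonempty
  · intro h x hx
    have h1 := h x
    rw [Metric.infDist_zero_of_mem hx] at h1
    exact (L.isCompact.isClosed.mem_iff_infDist_zero L.nonempty).2
      (le_antisymm h1 Metric.infDist_nonneg)

theorem isClosed_subset : IsClosed {p : NonemptyCompacts ℂ × NonemptyCompacts ℂ |
    (p.1 : Set ℂ) ⊆ p.2} := by
  have e : {p : NonemptyCompacts ℂ × NonemptyCompacts ℂ | (p.1 : Set ℂ) ⊆ p.2} =
      ⋂ x : ℂ, {p | Metric.infDist x (p.2 : Set ℂ) ≤ Metric.infDist x (p.1 : Set ℂ)} := by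
    ext p
    simp only [mem_iInter, mem_ofPred_eq]
    exact subset_iff_infDist
  rw [e]
  exact isClosed_iInter fun x => isClosed_le ((continuous_infDist x).comp continuous_snd)
    ((continuous_infDist x).comp continuous_fst)

theorem ext_infDist {K L : NonemptyCompacts ℂ}
    (h : ∀ n, Metric.infDist (denseSeq ℂ n) (K : Set ℂ) =
      Metric.infDist (denseSeq ℂ n) (L : Set ℂ)) : K = L := by
  have hall : ∀ x : ℂ, Metric.infDist x (K : Set ℂ) = Metric.infDist x (L : Set ℂ) := by
    intro x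
    have hc : IsClosed {x : ℂ | Metric.infDist x (K : Set ℂ) = Metric.infDist x (L : Set ℂ)} :=
      isClosed_eq (Metric.continuous_infDist_pt _) (Metric.continuous_infDist_pt _)
    have hsub : closure (range (denseSeq ℂ)) ⊆
        {x : ℂ | Metric.infDist x (K : Set ℂ) = Metric.infDist x (L : Set ℂ)} := by
      apply hc.closure_subset_iff.2
      rintro _ ⟨n, rfl⟩
      exact h n
    rw [(denseRange_denseSeq ℂ).closure_range] at hsub
    exact hsub (mem_univ x)
  apply SetLike.coe_injective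
  apply Subset.antisymm
  · exact subset_iff_infDist.2 fun x => (hall x).ge
  · exact subset_iff_infDist.2 fun x => (hall x).le

theorem isClosed_eq_set (S : Set ℂ) : IsClosed {K : NonemptyCompacts ℂ | (K : Set ℂ) = S} := by
  apply Set.Subsingleton.isClosed
  intro K hK L hL
  exact SetLike.coe_injective (hK.trans hL.symm)

theorem measurable_null (hb : Bornology.IsBounded Ω) :
    MeasurableSet {K : NonemptyCompacts ℂ | volume ((K : Set ℂ) ∩ Ω) = 0} := by
  have hfin : IsFiniteMeasure (volume.restrict Ω : Measure ℂ) := by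
    constructor
    rw [Measure.restrict_apply_univ]
    exact hb.measure_lt_top
  have hval : ∀ K : NonemptyCompacts ℂ, volume ((K : Set ℂ) ∩ Ω) =
      (volume.restrict Ω : Measure ℂ) K := fun K =>
    (Measure.restrict_apply K.isCompact.isClosed.measurableSet).symm
  have hopen : ∀ n : ℕ, IsOpen {K : NonemptyCompacts ℂ |
      (volume.restrict Ω : Measure ℂ) (K : Set ℂ) < 1 / ((n : ENNReal) + 1)} := by
    intro n
    rw [isOpen_iff_mem_nhds]
    intro K hK
    obtain ⟨U, hKU, hU, hUl⟩ := (K : Set ℂ).exists_isOpen_lt_of_lt _ hK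
    filter_upwards [(NonemptyCompacts.isOpen_subsets_of_isOpen hU).mem_nhds hKU] with L hL
    exact lt_of_le_of_lt (measure_mono hL) hUl
  have e : {K : NonemptyCompacts ℂ | volume ((K : Set ℂ) ∩ Ω) = 0} =
      ⋂ n : ℕ, {K : NonemptyCompacts ℂ |
        (volume.restrict Ω : Measure ℂ) (K : Set ℂ) < 1 / ((n : ENNReal) + 1)} := by
    ext K
    simp only [mem_iInter, mem_ofPred_eq]
    rw [hval]
    constructor
    · intro h n
      rw [h]
      apply ENNReal.div_pos one_ne_zero
      exact ENNReal.add_ne_top.2 ⟨ENNReal.natCast_ne_top n, ENNReal.one_ne_top⟩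
    · intro h
      by_contra h0
      obtain ⟨n, hn⟩ := ENNReal.exists_inv_nat_lt h0
      have h1 := h n
      have h2 : (1 : ENNReal) / ((n : ENNReal) + 1) ≤ (n : ENNReal)⁻¹ := by
        rw [one_div]
        exact ENNReal.inv_le_inv.2 le_self_add
      exact absurd (h1.trans_le (h2.trans hn.le)) (lt_irrefl _)
  rw [e]
  exact MeasurableSet.iInter fun n => (hopen n).measurableSet

/-- constants as fields -/
noncomputable def cf (hb : Bornology.IsBounded Ω) (C : ℝ) : Fld Ω :=
  (memLp_of_bound hb (measurable_const (a := C)) (C := |C|) fun _ => le_rfl).toLp (fun _ => C)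

theorem coe_cf (hb : Bornology.IsBounded Ω) (C : ℝ) :
    ∀ᵐ z ∂(volume.restrict Ω : Measure ℂ), (cf hb C : Fld Ω) z = C :=
  (memLp_of_bound hb (measurable_const (a := C)) (C := |C|) fun _ => le_rfl).coeFn_toLp

theorem isClosed_bdd (hb : Bornology.IsBounded Ω) (C : ℝ) :
    IsClosed {f : Fld Ω | ∀ᵐ z ∂(volume.restrict Ω : Measure ℂ), |f z| ≤ C} := by
  have e : {f : Fld Ω | ∀ᵐ z ∂(volume.restrict Ω : Measure ℂ), |f z| ≤ C} =
      {f : Fld Ω | f ≤ cf hb C} ∩ {f : Fld Ω | cf hb (-C) ≤ f} := by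
    ext f
    simp only [mem_inter_iff, mem_ofPred_eq]
    rw [← Lp.coeFn_le, ← Lp.coeFn_le]
    constructor
    · intro h
      constructor
      · filter_upwards [h, coe_cf hb C] with z h1 h2
        rw [h2]
        exact (abs_le.1 h1).2
      · filter_upwards [h, coe_cf hb (-C)] with z h1 h2
        rw [h2]
        exact (abs_le.1 h1).1
    · rintro ⟨h1, h2⟩
      filter_upwards [h1, h2, coe_cf hb C, coe_cf hb (-C)] with z h3 h4 h5 h6
      rw [h5] at h3
      rw [h6] at h4
      exact abs_le.2 ⟨h4, h3⟩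
  rw [e]
  exact isClosed_Iic.inter isClosed_Ici

theorem isClosed_const (hΩ : MeasurableSet Ω) {U : Set ℂ} (hU : IsOpen U) (hUΩ : U ⊆ Ω) (t : ℝ) :
    IsClosed {f : Fld Ω | ∀ᵐ z ∂(volume.restrict Ω : Measure ℂ), z ∈ U → f z = t} := by
  have e : {f : Fld Ω | ∀ᵐ z ∂(volume.restrict Ω : Measure ℂ), z ∈ U → f z = t} =
      ⋂ φ : {φ : ℂ → ℝ // IsTest U φ}, {f : Fld Ω | pr f φ.1 = t * ∫ z, φ.1 z} := by
    ext f
    simp only [mem_iInter, mem_ofPred_eq, Subtype.forall]
    constructor
    · intro h φ hφ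
      exact pr_of_eq_const hΩ hUΩ h hφ
    · intro h
      exact eq_const_of_pr hΩ hU hUΩ h
  rw [e]
  refine isClosed_iInter fun φ => ?_
  have hφ : IsTest Ω φ.1 := ⟨φ.2.1, φ.2.2.1, φ.2.2.2.trans hUΩ⟩
  exact isClosed_eq (continuous_pr hφ) continuous_const

/-- rational discs slightly larger than a closed disc in an open set -/
theorem exists_rat_ball {V : Set ℂ} (hV : IsOpen V) {z : ℂ} {r : ℝ} (hr : 0 < r)
    (h : Metric.closedBall z r ⊆ V) : ∃ i : P155.U.Idx,
      Metric.closedBall (P155.U.ctr i) (i.2 : ℝ) ⊆ V ∧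
      Metric.ball z r ⊆ Metric.ball (P155.U.ctr i) (i.2 : ℝ) := by
  obtain ⟨ε, hε, hball⟩ := (isCompact_closedBall z r).exists_cthickening_subset_open hV h
  obtain ⟨ρ, hρ0, hρ1⟩ := exists_rat_btwn (show r + ε / 4 < r + ε / 2 by linarith)
  obtain ⟨a, ha0, ha1⟩ := exists_rat_btwn (show z.re < z.re + ε / 8 by linarith)
  obtain ⟨b, hb0, hb1⟩ := exists_rat_btwn (show z.im < z.im + ε / 8 by linarith)
  have hd : dist z (P155.U.ctr ((a, b), ρ)) < ε / 4 := by
    rw [dist_eq_norm]
    have h1 := Complex.norm_le_abs_re_add_abs_im (z - P155.U.ctr ((a, b), ρ))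
    have h2 : |(z - P155.U.ctr ((a, b), ρ)).re| < ε / 8 := by
      simp only [P155.U.ctr, Complex.sub_re]
      rw [abs_lt]
      constructor <;> linarith
    have h3 : |(z - P155.U.ctr ((a, b), ρ)).im| < ε / 8 := by
      simp only [P155.U.ctr, Complex.sub_im]
      rw [abs_lt]
      constructor <;> linarith
    linarith
  refine ⟨((a, b), ρ), ?_, ?_⟩
  · intro w hw
    apply hball
    rw [cthickening_closedBall hε.le hr.le]
    rw [Metric.mem_closedBall] at hw ⊢
    simp only at hw
    have h4 := dist_triangle w (P155.U.ctr ((a, b), ρ)) z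
    have h5 := dist_comm (P155.U.ctr ((a, b), ρ)) z
    linarith
  · intro w hw
    rw [Metric.mem_ball] at hw ⊢
    simp only
    have h4 := dist_triangle w z (P155.U.ctr ((a, b), ρ))
    linarith

end Vale.Agent.P155.U613
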